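import Vale.Agent.P272.KOD.Soft3
import Vale.Agent.P272.K.Inv.Chart
import Vale.Agent.P300LC.Main

/-!
# N272: the pluricanonical images are nonsingular projective varieties
-/

open scoped Manifold ContDiff ComplexOrder Topology
open Set Filter Metric

set_option linter.all false

noncomputable section

namespace Vale.Agent.N272

open Vale.Agent.P272 Vale.Agent.P272.K Vale.Agent.P272.KOD Vale.Agent.P300.Final

variable {n m N : ℕ} {X : Type} [TopologicalSpace X] [ChartedSpace (Cm n) X]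
  [IsManifold 𝓘(ℂ, Cm n) ω X] {e : Chart n X} {x : X} {s : Fin (N + 1) → PSec n m X}

/-- the coefficients of the sections in the chart `e` -/
def cf (s : Fin (N + 1) → PSec n m X) (e : Chart n X) (z : Cm n) : Cm (N + 1) :=
  fun k => (s k).coeff e z

lemma contDiffAt_cf (h : At e x) : ContDiffAt ℂ ω (cf s e) (e x) :=
  contDiffAt_pi.2 fun k => ((s k).holo e x h).contDiffAt

lemma cf_change (h : At e x) :
    cf s e (e x) = (jacM e (cht n x) x).det ^ m • fun i => (s i).val x := by
  funext k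
  simp only [cf, Pi.smul_apply, smul_eq_mul]
  rw [coeff_eq (s k) h, mul_comm]

lemma cf_ne_zero (hs : DefinesEmbedding s) (h : At e x) : cf s e (e x) ≠ 0 := by
  rw [cf_change h]
  exact smul_ne_zero (pow_ne_zero _ (jacM_det_ne_zero h (at_cht x))) (hs.ne_zero x)

lemma mk_cf (hs : DefinesEmbedding s) (h : At e x) :
    Projectivization.mk ℂ (fun i => (s i).val x) (hs.ne_zero x) =
      Projectivization.mk ℂ (cf s e (e x)) (cf_ne_zero hs h) := by
  symm
  rw [Projectivization.mk_eq_mk_iff']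
  exact ⟨_, (cf_change h).symm⟩

lemma jet_of (hs : DefinesEmbedding s) (h : At e x) {i : Fin (N + 1)}
    (hie : (s i).coeff e (e x) ≠ 0) : Jet (s i) s e x := by
  have hi : (s i).val x ≠ 0 := (val_ne_iff (s i) h).2 hie
  have j0 : Jet (s i) s (cht n x) x := by
    refine ⟨hi, (injective_iff_map_eq_zero _).2 fun u hu => hs.immersive x i hi u fun j => ?_⟩
    have ha := (ratio_analyticAt (s := s) (at_cht x) hi).differentiableAt.hasFDerivAt
    rw [hasFDerivAt_pi'] at ha
    change fderiv ℂ (fun z => ratio (s i) s (cht n x) z j) ((cht n x) x) u = 0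
    rw [(ha j).fderiv]
    exact congrFun hu j
  exact j0.change (at_cht x) h

lemma cf_imm (hs : DefinesEmbedding s) (h : At e x) {v : Cm n} {a : ℂ}
    (hv : fderiv ℂ (cf s e) (e x) v = a • cf s e (e x)) : v = 0 := by
  obtain ⟨i, hi⟩ := Function.ne_iff.1 (hs.ne_zero x)
  have hie : (s i).coeff e (e x) ≠ 0 := (val_ne_iff (s i) h).1 hi
  have j1 := jet_of hs h hie
  refine (injective_iff_map_eq_zero _).1 j1.2 v (funext fun j => ?_)
  have ha := (ratio_analyticAt (s := s) h hie).differentiableAt.hasFDerivAt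
  rw [hasFDerivAt_pi'] at ha
  have hd : ∀ j, HasFDerivAt ((s j).coeff e)
      ((ContinuousLinearMap.proj j).comp (fderiv ℂ (cf s e) (e x))) (e x) := fun j =>
    (hasFDerivAt_pi'.1 ((contDiffAt_cf h).differentiableAt (by simp)).hasFDerivAt) j
  have h5 := (hd j).mul ((hasFDerivAt_inv' hie).comp (e x) (hd i))
  have h6 : (fun z => ratio (s i) s e z j) = (s j).coeff e * (Inv.inv ∘ (s i).coeff e) := by
    funext z; simp [ratio, div_eq_mul_inv]
  have h9 := congrArg (fun L : Cm n →L[ℂ] ℂ => L v) ((ha j).unique (h6 ▸ h5))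
  have h7 : fderiv ℂ (cf s e) (e x) v j = a * (s j).coeff e (e x) := congrFun hv j
  have h8 : fderiv ℂ (cf s e) (e x) v i = a * (s i).coeff e (e x) := congrFun hv i
  refine h9.trans ?_
  simp [h7, h8]
  field_simp
  ring

lemma mfderiv_cf {y : X} (hy : y ∈ (chartAt (Cm n) x).source) (v : Cm n) :
    (mfderiv 𝓘(ℂ, Cm n) 𝓘(ℂ, Cm (N + 1)) (fun u => cf s (cht n x) (cht n x u)) y v :
      Cm (N + 1)) = fderiv ℂ (cf s (cht n x)) (cht n x y)
        (mfderiv 𝓘(ℂ, Cm n) 𝓘(ℂ, Cm n) (chartAt (Cm n) x) y v : Cm n) := by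
  have h1 := (mdifferentiable_chart (I := 𝓘(ℂ, Cm n)) x).mdifferentiableAt hy
  have h2 : MDifferentiableAt 𝓘(ℂ, Cm n) 𝓘(ℂ, Cm (N + 1)) (cf s (cht n x)) (cht n x y) :=
    ((contDiffAt_cf ⟨chart_mem_atlas _ _, hy⟩).differentiableAt (by simp)).mdifferentiableAt
  have h3 := mfderiv_comp y h2 h1
  rw [mfderiv_eq_fderiv] at h3
  exact congrArg (fun L => L v) h3

/-- **Chow**: the image of a pluricanonical embedding is a nonsingular projective variety. -/
theorem algebraic [CompactSpace X] [ConnectedSpace X] (hs : DefinesEmbedding s) :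
    ∃ S, IsNonsingularZeroSetOf n S
      (range fun x => Projectivization.mk ℂ (fun i => (s i).val x) (hs.ne_zero x)) := by
  set Φ := fun x => Projectivization.mk ℂ (fun i => (s i).val x) (hs.ne_zero x) with hΦ0
  have hΦ : IsProjectiveImmersion (Cm n) Φ := by
    intro x
    have hat : ∀ y ∈ (chartAt (Cm n) x).source, At (cht n x) y :=
      fun y hy => ⟨chart_mem_atlas _ _, hy⟩
    refine ⟨(chartAt (Cm n) x).source, fun y => cf s (cht n x) (cht n x y),
      mem_chart_source _ _, ⟨(chartAt (Cm n) x).open_source, fun y hy =>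
        ((contDiffAt_cf (hat y hy)).contMDiffAt.comp y
          (chart_contMDiffAt (hat y hy))).contMDiffWithinAt⟩,
      fun y hy => ⟨cf_ne_zero hs (hat y hy), mk_cf hs (hat y hy)⟩, fun y hy v a hv => ?_⟩
    have h3 := cf_imm hs (hat y hy) ((mfderiv_cf hy v).symm.trans hv)
    exact (mdifferentiable_chart (I := 𝓘(ℂ, Cm n)) x).mfderiv_injective hy
      (h3.trans (map_zero _).symm)
  obtain ⟨x⟩ : Nonempty X := inferInstance
  exact P300LC.Cn.main (C := P300LC.cone Φ univ) ⟨fun h => h.1 rfl, fun v ⟨a, x, b, c⟩ s hs =>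
    ⟨smul_ne_zero hs a, x, b, Submodule.smul_mem _ _ c⟩, P300LC.cl_cone hΦ isClosed_univ,
    P300LC.con_cone hΦ, fun v hv => P300LC.par_cone hs.injective hΦ hv⟩
    ⟨_, (Φ x).rep_nonzero, x, trivial, (P300LC.mem_iff (Φ x).rep_nonzero).2 (Φ x).mk_rep.symm⟩
    fun z hz => ⟨fun ⟨x, a⟩ => ⟨hz, x, trivial, (P300LC.mem_iff hz).2 a⟩,
      fun ⟨_, x, _, a⟩ => ⟨x, (P300LC.mem_iff hz).1 a⟩⟩

end Vale.Agent.N272
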