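import Vale.Agent.N272.Vol
import Vale.Agent.P272.TOP.Q1

/-!
# N272: the Kähler-Einstein metric of a compact hyperbolic Kähler manifold
-/

open scoped Manifold ContDiff ComplexOrder Topology Matrix
open Set Filter

set_option linter.all false

noncomputable section

namespace Vale.Agent.N272

open Vale.Agent.P272 Vale.Agent.P272.K

variable {n : ℕ} {X : Type} [TopologicalSpace X] [ChartedSpace (Cm n) X]
  [IsManifold 𝓘(ℂ, Cm n) ω X] {g h w : Met n X}

lemma Same.le {a b : Met n X} (h : Same a b) : Le a b := fun e x hx => by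
  rw [h e x hx, sub_self]
  exact Matrix.PosSemidef.zero

lemma Same.ge {a b : Met n X} (h : Same a b) : Le b a := fun e x hx => by
  rw [h e x hx, sub_self]
  exact Matrix.PosSemidef.zero

lemma det_le [CompactSpace X] (hg : IsHermitian g) (hh : IsHermitian h) (h1 : Le (Ric g) (-g))
    (h2 : Le (-h) (Ric h)) {e : Chart n X} {x : X} (a : At e x) :
    (g e (e x)).det.re ≤ (h e (e x)).det.re := by
  have h3 := volLe (F := id) contMDiff_id hg hh h1 h2 e e x a a
  have h4 : jac (id : X → X) e e x = 1 := by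
    change (jacM e e x).det = 1
    rw [jacM_self a, Matrix.det_one]
  rw [h4] at h3
  simpa using h3

/-- uniqueness of the Einstein metric -/
theorem unique [CompactSpace X] (hg : IsHermitian g) (hh : IsHermitian h) (h1 : Same (Ric g) (-g))
    (h2 : Same (Ric h) (-h)) : Same h g := by
  intro e x a
  have h3 : (fun z => Real.log (h e z).det.re) =ᶠ[𝓝 (e x)] fun z => Real.log (g e z).det.re := by
    filter_upwards [a.nhds_target] with z hz
    have b := At.of_target a.1 hz
    have h4 := le_antisymm (det_le hh hg h2.le h1.ge b) (det_le hg hh h1.le h2.ge b)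
    rw [e.right_inv hz] at h4
    rw [h4]
  have h5 := h1 e x a
  have h6 := h2 e x a
  simp only [Ric, Pi.neg_apply, neg_inj] at h5 h6
  rw [← h5, ← h6, K.cHess_congr h3]

lemma ricGe (h2 : Le (-h) (Ric h)) : HY.RicGe h := fun e x a => by
  have h3 := h2 e x a
  simpa only [Ric, Pi.neg_apply, sub_neg_eq_add] using h3

variable [T2Space X] [CompactSpace X]

/-- the uniform Schwarz lemma -/
theorem schwarz (hX : BrodyHyperbolic n X) (hg : IsHermitian g) :
    ∃ c : ℝ, 0 < c ∧ ∀ h : Met n X, IsKahler h → Le (-h) (Ric h) → Le (c • g) h := by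
  obtain ⟨M, hM, hb⟩ := HY.b2 g hg hX
  obtain ⟨c, hc, h1⟩ := TOP.thmA n X g hg M hM hb
  refine ⟨c, hc, fun h hh h2 e x a => ?_⟩
  have h3 := h1 h hh (ricGe h2) e x a
  rwa [TOP.smul_ofReal_matrix] at h3

/-- existence of the Kähler-Einstein metric -/
theorem exists_ke (hX : BrodyHyperbolic n X) (hw : IsKahler w) :
    ∃ g : Met n X, IsKahler g ∧ Same (Ric g) (-g) := by
  obtain ⟨M, hM, hb⟩ := HY.b2 w hw.toIsHermitian hX
  obtain ⟨a, ha, hn⟩ := S2B.nef_neg hw (XT.schwarz_of_thmA hw.toIsHermitian hM hb (TOP.thmA n X))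
  obtain ⟨φ, hφ⟩ := S2B.exists_ke hw hn (neg_pos.2 ha)
  rw [add_neg_cancel] at hφ
  refine ⟨_, hφ.isKahler hw, fun e x hx => ?_⟩
  have h1 := hφ.ric hx
  simp only [Ric, Pi.neg_apply, h1]
  simp

end Vale.Agent.N272
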