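import Vale.Agent.P272.KOD.Main

/-!
# N272: all large powers of a positive canonical bundle are very ample
-/

open scoped Manifold ContDiff ComplexOrder Topology
open Set Filter Metric

set_option linter.all false

noncomputable section

namespace Vale.Agent.N272

open Vale.Agent.P272 Vale.Agent.P272.K Vale.Agent.P272.KOD

variable {n m : ℕ} {X : Type} [TopologicalSpace X] [ChartedSpace (Cm n) X]
  [IsManifold 𝓘(ℂ, Cm n) ω X]

theorem jetAt_large [T2Space X] {φ : Chart n X → Cm n → ℝ} (hφ : IsCanonicalMetric φ)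
    (hpos : ∀ e x, At e x → (cHess (φ e) (e x)).PosDef) (D : KeyData φ) (x : X) :
    ∃ k, 1 ≤ k ∧ ∀ m, k ≤ m → JetAt n m x := by
  obtain ⟨i, hx, hxV⟩ := D.cov x
  have hat : At (D.e i) x := ⟨D.atl i, hx⟩
  obtain ⟨h, a, A, R, N⟩ := exists_NF ((hφ.smooth (D.e i) x hat).of_le KOD.two_le_infty)
    (hpos _ x hat)
  obtain ⟨r, hr, hrR, hrV, -⟩ := exists_radius (D.isOpen i) (subset_closure.trans (D.sub i)) hx hxV
    isOpen_univ (mem_univ x) N.R_pos
  obtain ⟨K, s, hK, hs⟩ := exists_approx hφ D i N hr hrR hrV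
  have ha := N.a_pos
  obtain ⟨ρ, hρ, hρr, -, hjet⟩ := N.jet (δ := a * r ^ 2 / 4) (ρ₀ := r / 2) (by positivity)
    (by positivity)
  obtain ⟨m₁, hm₁⟩ := hjet K hK
  refine ⟨max D.m₀ m₁, D.one_le.trans (le_max_left _ _), fun m hm => ⟨s m, D.e i, hat, ?_⟩⟩
  have hball : ball (D.e i x) ρ ⊆ ball (D.e i x) (r / 2) := ball_subset_ball hρr
  have hbt : ball (D.e i x) ρ ⊆ (D.e i).target := fun z hz =>
    D.sub i (subset_closure (hrV (ball_subset_closedBall
      (ball_subset_ball (by linarith) (hball hz)))))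
  exact hm₁ _ ((le_max_right _ _).trans hm) (fun q => (s m q).coeff (D.e i))
    (fun q => PSec.differentiableOn _ (D.atl i) hbt)
    (fun q => (nrm_mono hball _).trans (hs _ ((le_max_left _ _).trans hm) q).1)

omit [IsManifold 𝓘(ℂ, Cm n) ω X] in
lemma val_nhds (s : PSec n m X) {x : X} (h : s.val x ≠ 0) : ∀ᶠ y in 𝓝 x, s.val y ≠ 0 := by
  filter_upwards [(coeff_contAt s (at_cht x)).eventually_ne h, at_nhds (at_cht (n := n) x)]
    with y hy hy'
  exact (val_ne_iff s hy').2 hy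

omit [IsManifold 𝓘(ℂ, Cm n) ω X] in
/-- all large powers are generated by their global sections -/
theorem gen_large [CompactSpace X]
    (h : ∀ x : X, ∃ k, 1 ≤ k ∧ ∀ m, k ≤ m → JetAt n m x) :
    ∃ k, ∀ m, k ≤ m → ∀ x : X, ∃ s : PSec n m X, s.val x ≠ 0 := by
  have key : ∃ k, ∀ m, k ≤ m → ∀ x ∈ (univ : Set X), ∃ s : PSec n m X, s.val x ≠ 0 := by
    refine isCompact_univ.induction_on
      (p := fun W : Set X => ∃ k, ∀ m, k ≤ m → ∀ x ∈ W, ∃ s : PSec n m X, s.val x ≠ 0)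
      ⟨0, by simp⟩ ?_ ?_ ?_
    · rintro s t hst ⟨k, h⟩
      exact ⟨k, fun m hm x hx => h m hm x (hst hx)⟩
    · rintro s t ⟨a, hs⟩ ⟨b, ht⟩
      refine ⟨max a b, fun m hm x hx => hx.elim (hs m ((le_max_left _ _).trans hm) x)
        (ht m ((le_max_right _ _).trans hm) x)⟩
    · intro x _
      obtain ⟨k, hk, hj⟩ := h x
      obtain ⟨s, e, he, h0, -⟩ := hj k le_rfl
      obtain ⟨t, e', he', h0', -⟩ := hj (k + 1) (Nat.le_succ k)
      refine ⟨{y | (s 0).val y ≠ 0 ∧ (t 0).val y ≠ 0}, mem_nhdsWithin_of_mem_nhds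
        ((val_nhds _ ((val_ne_iff _ he).2 h0)).and (val_nhds _ ((val_ne_iff _ he').2 h0'))),
        k * k, fun m hm y hy => ?_⟩
      have h1 : m % k < k := Nat.mod_lt _ hk
      have h2 : k ≤ m / k := (Nat.le_div_iff_mul_le hk).2 hm
      obtain ⟨a, ha⟩ : ∃ a, m / k = a + m % k := ⟨m / k - m % k, by omega⟩
      have h3 : k * a + (k + 1) * (m % k) = m := by
        have h4 := Nat.div_add_mod m k
        rw [ha] at h4
        linarith
      refine ⟨pfCast h3 (pfMul (pfPow (s 0) a) (pfPow (t 0) (m % k))), ?_⟩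
      exact mul_ne_zero (pow_ne_zero _ hy.1) (pow_ne_zero _ hy.2)
  obtain ⟨k, hk⟩ := key
  exact ⟨k, fun m hm x => hk m hm x (mem_univ x)⟩

omit [IsManifold 𝓘(ℂ, Cm n) ω X] in
lemma jetP_mul {r : ℕ} {x : X} (hj : JetP n m x) (t : PSec n r X) (ht : t.val x ≠ 0) :
    JetP n (m + r) x := by
  obtain ⟨s0, s, hs⟩ := hj
  refine ⟨pfMul s0 t, fun i => pfMul (s i) t, mul_ne_zero hs.1 ht, ?_⟩
  have h4 : ratio (pfMul s0 t) (fun i => pfMul (s i) t) (cht n x) =ᶠ[𝓝 (cht n x x)]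
      ratio s0 s (cht n x) := by
    filter_upwards [(t.holo _ x (at_cht x)).continuousAt.eventually_ne ht] with w hw
    funext i
    exact mul_div_mul_right _ _ hw
  rw [h4.fderiv_eq]
  exact hs.2

omit [IsManifold 𝓘(ℂ, Cm n) ω X] in
lemma sepP_mul {r : ℕ} {x y : X} (h : SepP n m x y) (a b : PSec n r X) (ha : a.val x ≠ 0)
    (hb : b.val y ≠ 0) : SepP n (m + r) x y := by
  obtain ⟨u, h1, h2⟩ : ∃ u : PSec n r X, u.val x ≠ 0 ∧ u.val y ≠ 0 := by
    by_cases h1 : a.val y = 0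
    · by_cases h2 : b.val x = 0
      · refine ⟨pfComb 1 1 a b, ?_, ?_⟩
        · change 1 * a.val x + 1 * b.val x ≠ 0
          simpa [h2] using ha
        · change 1 * a.val y + 1 * b.val y ≠ 0
          simpa [h1] using hb
      · exact ⟨b, h2, hb⟩
    · exact ⟨a, ha, h1⟩
  obtain ⟨s, t, hst⟩ := h
  refine ⟨pfMul s u, pfMul t u, ?_⟩
  change s.val x * u.val x * (t.val y * u.val y) - s.val y * u.val y * (t.val x * u.val x) ≠ 0
  intro h0
  refine mul_ne_zero hst (mul_ne_zero h1 h2) ?_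
  linear_combination h0

theorem embed_of [CompactSpace X] (hJ' : ∀ x : X, JetP n m x)
    (hS' : ∀ x y : X, x ≠ y → SepP n m x y) :
    ∃ (N : ℕ) (s : Fin (N + 1) → PSec n m X), DefinesEmbedding s := by
  obtain ⟨F, hF, hF'⟩ := exists_jet_finite hJ'
  obtain ⟨G, hG, hG'⟩ := exists_sep_finite hJ' hS'
  obtain ⟨k, f, -, hf⟩ := ((hF.union hG).insert (pfZero n m X)).fin_param
  obtain ⟨i00, _⟩ : pfZero n m X ∈ range f := by rw [hf]; exact mem_insert _ _
  obtain ⟨N, rfl⟩ : ∃ N, k = N + 1 := ⟨k - 1, by have := i00.2; omega⟩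
  have hFf : ∀ s ∈ F, ∃ i, f i = s := by
    intro s hs
    have : s ∈ range f := by rw [hf]; exact mem_insert_of_mem _ (Or.inl hs)
    exact this
  have hGf : ∀ s ∈ G, ∃ i, f i = s := by
    intro s hs
    have : s ∈ range f := by rw [hf]; exact mem_insert_of_mem _ (Or.inr hs)
    exact this
  have hjet : ∀ x : X, ∃ i0, Jet (f i0) f (cht n x) x := by
    intro x
    obtain ⟨s0, h0, s, h1, h2⟩ := hF' x
    obtain ⟨i0, rfl⟩ := hFf s0 h0
    choose g hg using fun i => hFf (s i) (h1 i)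
    exact ⟨i0, h2.mono (at_cht x) g hg⟩
  have h0 : ∀ x : X, (fun i => (f i).val x) ≠ 0 := by
    intro x h
    obtain ⟨i0, hi0⟩ := hjet x
    exact (val_ne_iff (f i0) (at_cht x)).mpr hi0.1 (congrFun h i0)
  refine ⟨N, f, h0, ?_, ?_⟩
  · intro x y hxy
    by_contra hne
    obtain ⟨s, hs, t, ht, hst⟩ := hG' x y hne
    obtain ⟨i, rfl⟩ := hGf s hs
    obtain ⟨j, rfl⟩ := hGf t ht
    have h1 := (Projectivization.mk_eq_mk_iff' ℂ _ _ (h0 x) (h0 y)).mp hxy
    obtain ⟨a, ha⟩ := h1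
    have hi := congrFun ha i
    have hj := congrFun ha j
    simp only [Pi.smul_apply, smul_eq_mul] at hi hj
    apply hst
    rw [← hi, ← hj]
    ring
  · intro x i hi v hv
    obtain ⟨i0, hi0⟩ := hjet x
    have h1 := hi0.denom (at_cht x) ((val_ne_iff (f i) (at_cht x)).mp hi)
    have ha := (ratio_analyticAt (s := f) (at_cht x) h1.1).differentiableAt.hasFDerivAt
    rw [hasFDerivAt_pi'] at ha
    apply h1.2
    rw [map_zero]
    funext j
    have h3 := (ha j).fderiv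
    have h4 := hv j
    unfold dratio at h4
    change fderiv ℂ (fun z => ratio (f i) f (cht n x) z j) ((cht n x) x) v = 0 at h4
    rw [h3] at h4
    exact h4

/-- **All large powers of a positive canonical bundle are very ample.** -/
theorem veryAmple_large [T2Space X] [CompactSpace X] {φ : Chart n X → Cm n → ℝ}
    (hφ : IsCanonicalMetric φ) (hpos : ∀ e x, At e x → (cHess (φ e) (e x)).PosDef) :
    ∃ k, ∀ m, k ≤ m → ∃ (N : ℕ) (s : Fin (N + 1) → PSec n m X), DefinesEmbedding s := by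
  obtain ⟨D⟩ := Key.data (keyStmt n X φ hφ hpos)
  obtain ⟨k, hk⟩ := gen_large fun x => jetAt_large hφ hpos D x
  obtain ⟨l, -, hJ, hS⟩ := exists_level (n := n) (X := X)
    (fun x => (jetAt_of_key hφ hpos D x).imp fun _ h => ⟨h.1, jetP_of_jetAt h.2⟩)
    (fun x y hxy => (sepAt_of_key hφ hpos D x y hxy).imp fun _ h => ⟨h.1, sepP_of_sepAt h.2⟩)
  refine ⟨l + k, fun m hm => ?_⟩
  obtain ⟨r, rfl⟩ : ∃ r, m = l + r := ⟨m - l, by omega⟩
  choose t ht using hk r (by omega)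
  exact embed_of (fun x => jetP_mul (hJ x) (t x) (ht x))
    fun x y hxy => sepP_mul (hS x y hxy) (t x) (t y) (ht x) (ht y)

end Vale.Agent.N272
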