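import Vale.Agent.N272.Defs
import Vale.Agent.N272.KE
import Vale.Agent.N272.Large
import Vale.Agent.N272.Alg

/-!
# N272: passage to the definitions of the statement
-/

open scoped Manifold ContDiff
open Set

set_option linter.all false

noncomputable section

namespace Vale.Agent.N272

open Vale.Agent.P272 Vale.Agent.P272.K Vale.Agent.P272.KOD Vale.Agent.P300.Final

variable {n m N : ℕ} {X : Type} [TopologicalSpace X] [ChartedSpace (Cm n) X] {h : Met n X}

lemma herm_iff : N272S.IsHermitian h ↔ IsHermitian h :=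
  ⟨fun a => ⟨a.1, a.2, a.3⟩, fun a => ⟨a.1, a.2, a.3⟩⟩

lemma kahler_iff : N272S.IsKahler h ↔ IsKahler h :=
  ⟨fun a => ⟨herm_iff.1 a.1, a.2⟩, fun a => ⟨herm_iff.2 a.1, a.2⟩⟩

/-- the same section -/
def toSec (s : PSec n m X) : N272S.Sec n X m := ⟨s.coeff, s.holo, s.change⟩

lemma smoothVariety {S : Set (MvPolynomial (Fin (N + 1)) ℂ)}
    {Z : Set (Projectivization ℂ (Cm (N + 1)))} (a : IsNonsingularZeroSetOf n S Z) :
    N272S.SmoothVariety n Z := by
  refine ⟨S, a.1.1, fun z hz => ⟨a.1.2 z hz, fun b => ?_⟩⟩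
  have h1 : (⨅ P ∈ S, LinearMap.ker (Fintype.linearCombination ℂ fun b =>
      MvPolynomial.eval z (MvPolynomial.pderiv b P))) = jacobianKernel S z := by
    ext v
    change _ ↔ ∀ P ∈ S, polynomialDifferential P z v = 0
    simp [polynomialDifferential, Fintype.linearCombination_apply]
  rw [h1]
  exact a.2 z hz b

variable [IsManifold 𝓘(ℂ, Cm n) ω X]

lemma embeds {s : Fin (N + 1) → PSec n m X} (hs : DefinesEmbedding s) :
    N272S.Embeds (fun j => toSec (s j))
      fun x => Projectivization.mk ℂ (fun i => (s i).val x) (hs.ne_zero x) := by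
  refine ⟨fun e x a => ⟨cf_ne_zero hs a, mk_cf hs a⟩, hs.injective, fun e x i a hi => ?_⟩
  exact (jet_of hs a hi).2

theorem large [T2Space X] [CompactSpace X] [ConnectedSpace X] (hn : 1 ≤ n)
    (hX : BrodyHyperbolic n X) (hh : IsKahler h) :
    ∃ k : ℕ, ∀ m, k ≤ m → ∃ (N : ℕ) (s : Fin (N + 1) → N272S.Sec n X m)
      (Φ : X → Projectivization ℂ (Cm (N + 1))),
      N272S.Embeds s Φ ∧ N272S.SmoothVariety n (range Φ) := by
  obtain ⟨φ, hφ, hp⟩ := TOP.xam n hn X hX h hh
  obtain ⟨k, hk⟩ := veryAmple_large hφ hp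
  refine ⟨k, fun m hm => ?_⟩
  obtain ⟨N, s, hs⟩ := hk m hm
  obtain ⟨S, hS⟩ := algebraic hs
  exact ⟨N, _, _, embeds hs, smoothVariety hS⟩

end Vale.Agent.N272
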