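import Mathlib.Geometry.Manifold.MFDeriv.Basic
import Mathlib.Analysis.Matrix.PosDef
import Mathlib.Analysis.SpecialFunctions.Log.Basic
import Mathlib.LinearAlgebra.Projectivization.Basic
import Mathlib.RingTheory.MvPolynomial.Homogeneous
import Mathlib.Algebra.MvPolynomial.PDeriv

/-!
# N272: the definitions of the statement

Everything is expressed in the charts of a complex manifold modelled on `ℂⁿ`.
-/

open scoped Manifold ContDiff ComplexOrder

noncomputable section

namespace Vale.Agent.N272S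

/-- `ℂⁿ` -/
abbrev Cm (n : ℕ) : Type := Fin n → ℂ

/-- charts -/
abbrev Chart (n : ℕ) (X : Type) [TopologicalSpace X] : Type := OpenPartialHomeomorph X (Cm n)

/-- Fields of `n × n` matrices in the charts: coefficients of metrics and `(1,1)`-forms. -/
abbrev Met (n : ℕ) (X : Type) [TopologicalSpace X] : Type :=
  Chart n X → Cm n → Matrix (Fin n) (Fin n) ℂ

variable {n : ℕ} {X Y : Type} [TopologicalSpace X] [TopologicalSpace Y]

/-- `∂f/∂z_j` -/
def dz (j : Fin n) (f : Cm n → ℂ) (z : Cm n) : ℂ :=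
  (fderiv ℝ f z (Pi.single j 1) - Complex.I * fderiv ℝ f z (Pi.single j Complex.I)) / 2

/-- `∂f/∂z̄_j` -/
def dzb (j : Fin n) (f : Cm n → ℂ) (z : Cm n) : ℂ :=
  (fderiv ℝ f z (Pi.single j 1) + Complex.I * fderiv ℝ f z (Pi.single j Complex.I)) / 2

/-- The Ricci form `-i∂∂̄ log det h`. -/
def Ric (h : Met n X) : Met n X := fun e z =>
  -Matrix.of fun j k => dz j (dzb k fun y => (Real.log (h e y).det.re : ℂ)) z

/-- The Jacobian matrix at `y` of the map `F` read in the charts `e`, `e'`. -/
def jac (F : Y → X) (e : Chart n Y) (e' : Chart n X) (y : Y) : Matrix (Fin n) (Fin n) ℂ :=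
  Matrix.of fun p i => dz i (fun z => e' (F (e.symm z)) p) (e y)

/-- `Z ⊆ ℙ^N` is the zero set of homogeneous polynomials whose differentials have, at every point
of `Z`, a common kernel of dimension `d + 1`. -/
def SmoothVariety (d : ℕ) {N : ℕ} (Z : Set (Projectivization ℂ (Cm (N + 1)))) : Prop :=
  ∃ S : Set (MvPolynomial (Fin (N + 1)) ℂ), (∀ P ∈ S, ∃ k, P.IsHomogeneous k) ∧
    ∀ (z : Cm (N + 1)) (hz : z ≠ 0),
      (Projectivization.mk ℂ z hz ∈ Z ↔ ∀ P ∈ S, MvPolynomial.eval z P = 0) ∧
      (Projectivization.mk ℂ z hz ∈ Z → Module.finrank ℂ ↥(⨅ P ∈ S, LinearMap.ker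
        (Fintype.linearCombination ℂ fun b => MvPolynomial.eval z (MvPolynomial.pderiv b P))) =
          d + 1)

variable [ChartedSpace (Cm n) X] [ChartedSpace (Cm n) Y]

/-- `e` is a chart of the atlas, defined at `x` -/
def At (e : Chart n X) (x : X) : Prop := e ∈ atlas (Cm n) X ∧ x ∈ e.source

/-- smooth Hermitian metrics -/
structure IsHermitian (h : Met n X) : Prop where
  smooth : ∀ e x, At e x → ∀ i j, ContDiffAt ℝ ∞ (fun z => h e z i j) (e x)
  posDef : ∀ e x, At e x → (h e (e x)).PosDef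
  change : ∀ e e' x, At e x → At e' x →
    h e (e x) = (jac id e e' x).transpose * h e' (e' x) * (jac id e e' x).map (starRingEnd ℂ)

/-- Kähler metrics -/
def IsKahler (w : Met n X) : Prop := IsHermitian w ∧
  ∀ e x, At e x → ∀ i j k, dz k (fun z => w e z i j) (e x) = dz i (fun z => w e z k j) (e x)

/-- `a ≤ b` -/
def Le (a b : Met n X) : Prop := ∀ e x, At e x → (b e (e x) - a e (e x)).PosSemidef

/-- `a = b` -/
def Same (a b : Met n X) : Prop := ∀ e x, At e x → a e (e x) = b e (e x)

/-- The volume form of `g` pulled back by `F` is at most the volume form of `h`. -/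
def VolLe (F : Y → X) (g : Met n X) (h : Met n Y) : Prop :=
  ∀ e e' y, At e y → At e' (F y) →
    ‖(jac F e e' y).det‖ ^ 2 * (g e' (e' (F y))).det.re ≤ (h e (e y)).det.re

variable (n X) in
/-- every entire curve is constant -/
def Brody : Prop := ∀ f : ℂ → X, MDifferentiable 𝓘(ℂ, ℂ) 𝓘(ℂ, Cm n) f → ∀ s t : ℂ, f s = f t

variable (n X) in
/-- holomorphic sections of `K_X^m` -/
structure Sec (m : ℕ) where
  coeff : Chart n X → Cm n → ℂ
  holo : ∀ e x, At e x → AnalyticAt ℂ (coeff e) (e x)
  change : ∀ e e' x, At e x → At e' x → coeff e (e x) = coeff e' (e' x) * (jac id e e' x).det ^ m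

/-- The sections `s_0, …, s_N` define the holomorphic embedding `Φ = [s_0 : ⋯ : s_N]`: in every
chart the vector of the coefficients is nonzero and represents `Φ`; `Φ` is injective; where
`s_i ≠ 0` the map `(s_j / s_i)_j` has injective derivative. -/
structure Embeds {m N : ℕ} (s : Fin (N + 1) → Sec n X m)
    (Φ : X → Projectivization ℂ (Cm (N + 1))) : Prop where
  rep : ∀ e x, At e x → ∃ h, Φ x = Projectivization.mk ℂ (fun j => (s j).coeff e (e x)) h
  inj : Function.Injective Φ
  imm : ∀ e x i, At e x → (s i).coeff e (e x) ≠ 0 →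
    Function.Injective (fderiv ℂ (fun z j => (s j).coeff e z / (s i).coeff e z) (e x))

variable (n X) in
/-- `K_X` is ample -/
def Ample : Prop := ∃ m : ℕ, 1 ≤ m ∧ ∃ (N : ℕ) (s : Fin (N + 1) → Sec n X m)
  (Φ : X → Projectivization ℂ (Cm (N + 1))), Embeds s Φ

end Vale.Agent.N272S
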