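import Vale.Agent.P272.S2B.Schwarz

/-!
# N272: the Schwarz lemma for volume forms
-/

open scoped Manifold ContDiff ComplexOrder Topology Matrix
open Set Filter

set_option linter.all false

noncomputable section

namespace Vale.Agent.N272

open Vale.Agent.P272 Vale.Agent.P272.K

section

/-- Fields of `n × n` matrices in the charts of `X`: the coefficients of metrics and of
`(1,1)`-forms. -/
abbrev Met (n : ℕ) (X : Type) [TopologicalSpace X] : Type :=
  Chart n X → Cm n → Matrix (Fin n) (Fin n) ℂ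

variable {n : ℕ} {X Y : Type} [TopologicalSpace X] [TopologicalSpace Y]

/-- The Ricci form `Ric h = -i∂∂̄ log det h` of the Hermitian metric `h`. -/
def Ric (h : Met n X) : Met n X := fun e z => -cHess (fun y => Real.log (h e y).det.re) z

/-- The Jacobian determinant at `y` of the map `F : Y → X` read in the charts `e`, `e'`. -/
def jac (F : Y → X) (e : Chart n Y) (e' : Chart n X) (y : Y) : ℂ :=
  (Matrix.of fun p i => dz i (fun z => e' (F (e.symm z)) p) (e y)).det

variable [ChartedSpace (Cm n) X] [ChartedSpace (Cm n) Y]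

/-- `a ≤ b`: the matrix of `b - a` is positive semidefinite at every point. -/
def Le (a b : Met n X) : Prop := ∀ e x, At e x → (b e (e x) - a e (e x)).PosSemidef

/-- `a = b` at every point. -/
def Same (a b : Met n X) : Prop := ∀ e x, At e x → a e (e x) = b e (e x)

/-- The volume form of `g` pulled back by `F` is at most the volume form of `h`. -/
def VolLe (F : Y → X) (g : Met n X) (h : Met n Y) : Prop :=
  ∀ e e' y, At e y → At e' (F y) →
    ‖jac F e e' y‖ ^ 2 * (g e' (e' (F y))).det.re ≤ (h e (e y)).det.re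

end

variable {n : ℕ} {X Y : Type} [TopologicalSpace X] [TopologicalSpace Y]
  [ChartedSpace (Cm n) X] [ChartedSpace (Cm n) Y]
  [IsManifold 𝓘(ℂ, Cm n) ω X] [IsManifold 𝓘(ℂ, Cm n) ω Y]
  {F : Y → X} {e c : Chart n Y} {e' c' : Chart n X} {y : Y}

/-- the map `F` in charts -/
def loc (F : Y → X) (e : Chart n Y) (e' : Chart n X) (z : Cm n) : Cm n := e' (F (e.symm z))

lemma jac_eq : jac F e e' y = (jmat (loc F e e') (e y)).det := rfl

lemma loc_apply (h : At e y) : loc F e e' (e y) = e' (F y) := by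
  unfold loc
  rw [h.left_inv]

lemma loc_holo (hF : ContMDiff 𝓘(ℂ, Cm n) 𝓘(ℂ, Cm n) ω F) (h : At e y) (h' : At e' (F y)) :
    ContDiffAt ℂ ω (loc F e e') (e y) := by
  rw [← contMDiffAt_iff_contDiffAt]
  have h1 := chart_symm_contMDiffAt h.1 h.mem_target
  have h2 : ContMDiffAt 𝓘(ℂ, Cm n) 𝓘(ℂ, Cm n) ω (fun z => F (e.symm z)) (e y) :=
    (hF _).comp (e y) h1
  refine ContMDiffAt.comp (e y) (g := e') ?_ h2
  rw [h.left_inv]
  exact chart_contMDiffAt h'

lemma nhds_at (hF : Continuous F) (h : At e y) (h' : At e' (F y)) :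
    ∀ᶠ z in 𝓝 (e y), z ∈ e.target ∧ At e (e.symm z) ∧ At e' (F (e.symm z)) := by
  have h1 : ContinuousAt (fun z => F (e.symm z)) (e y) :=
    hF.continuousAt.comp (e.continuousAt_symm h.mem_target)
  have h2 : ∀ᶠ z in 𝓝 (e y), F (e.symm z) ∈ e'.source :=
    h1.eventually (e'.open_source.mem_nhds (by simp only [h.left_inv]; exact h'.2))
  filter_upwards [h.nhds_target, h2] with z hz hz'
  exact ⟨hz, At.of_target h.1 hz, h'.1, hz'⟩

lemma jac_change (hF : ContMDiff 𝓘(ℂ, Cm n) 𝓘(ℂ, Cm n) ω F) (h : At e y) (h' : At e' (F y))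
    (k : At c y) (k' : At c' (F y)) :
    jac F e e' y = (jacM c' e' (F y)).det * jac F c c' y * (jacM e c y).det := by
  have h1 : loc F e e' =ᶠ[𝓝 (e y)] fun z => (fun u => e' (c'.symm u))
      ((fun u => loc F c c' (c (e.symm u))) z) := by
    filter_upwards [h.nhds_at k, nhds_at hF.continuous h k'] with z hz hz'
    simp only [loc, hz.2.2.left_inv, hz'.2.2.left_inv]
  have h2 : c (e.symm (e y)) = c y := by rw [h.left_inv]
  have d1 := transition_differentiableAt h k
  have d2 := (loc_holo hF k k').differentiableAt (by simp)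
  have d3 := transition_differentiableAt k' h'
  have h3 := jmat_comp (τ := fun u => c (e.symm u)) (σ := loc F c c') (z := e y)
    (by rw [h2]; exact d2) d1
  have h4 := jmat_comp (τ := fun u => loc F c c' (c (e.symm u))) (σ := fun u => e' (c'.symm u))
    (z := e y) (by rw [h2, loc_apply k]; exact d3)
    (DifferentiableAt.comp (e y) (g := loc F c c') (by rw [h2]; exact d2) d1)
  rw [jac_eq, jmat_congr h1, h4, h3, h2, loc_apply k, Matrix.det_mul, Matrix.det_mul, jac_eq,
    jacM_eq, jacM_eq, mul_assoc]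

lemma jac_holo (hF : ContMDiff 𝓘(ℂ, Cm n) 𝓘(ℂ, Cm n) ω F) (h : At e y) (h' : At e' (F y)) :
    ContDiffAt ℂ ω (fun z => (jmat (loc F e e') z).det) (e y) := by
  have : (fun z => (jmat (loc F e e') z).det) = fun z => ∑ σ : Equiv.Perm (Fin n),
      (Equiv.Perm.sign σ : ℂ) * ∏ i, jmat (loc F e e') z (σ i) i := by
    funext z; rw [Matrix.det_apply']
  rw [this]
  exact ContDiffAt.sum fun σ _ => contDiffAt_const.mul
    (contDiffAt_prod fun i _ => jmat_holo (loc_holo hF h h') _ _)

variable {g : Met n X} {h : Met n Y}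

/-- the quotient of the volume forms, in charts -/
def quo (F : Y → X) (g : Met n X) (h : Met n Y) (e : Chart n Y) (e' : Chart n X) (y : Y) : ℝ :=
  ‖jac F e e' y‖ ^ 2 * (g e' (e' (F y))).det.re / (h e (e y)).det.re

lemma quo_change (hF : ContMDiff 𝓘(ℂ, Cm n) 𝓘(ℂ, Cm n) ω F) (hg : IsHermitian g)
    (hh : IsHermitian h) (a : At e y) (a' : At e' (F y)) (k : At c y) (k' : At c' (F y)) :
    quo F g h e e' y = quo F g h c c' y := by
  unfold quo
  rw [jac_change hF a a' k k', det_form_re hg.isForm k' a', det_form_re hh.isForm a k, norm_mul,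
    norm_mul]
  have h1 := norm_ne_zero_iff.2 (jacM_det_ne_zero a k)
  have h2 := (hh.det_re_pos k).ne'
  field_simp

/-- the quotient of the volume forms -/
def quoG (F : Y → X) (g : Met n X) (h : Met n Y) (y : Y) : ℝ :=
  quo F g h (chartAt (Cm n) y) (chartAt (Cm n) (F y)) y

/-- the quotient as a function of the coordinates -/
def quoL (F : Y → X) (g : Met n X) (h : Met n Y) (e : Chart n Y) (e' : Chart n X) (z : Cm n) : ℝ :=
  ‖(jmat (loc F e e') z).det‖ ^ 2 * (g e' (loc F e e' z)).det.re / (h e z).det.re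

lemma quoG_eq (hF : ContMDiff 𝓘(ℂ, Cm n) 𝓘(ℂ, Cm n) ω F) (hg : IsHermitian g)
    (hh : IsHermitian h) (a : At e y) (a' : At e' (F y)) :
    (fun z => quoG F g h (e.symm z)) =ᶠ[𝓝 (e y)] quoL F g h e e' := by
  filter_upwards [nhds_at hF.continuous a a'] with z hz
  rw [quoG, quo_change hF hg hh (BR.at_chartAt _) (BR.at_chartAt _) hz.2.1 hz.2.2, quo, jac_eq,
    e.right_inv hz.1]
  rfl

lemma det_smooth (hh : IsHermitian h) (a : At e y) :
    ContDiffAt ℝ 2 (fun z => (h e z).det.re) (e y) :=
  (contDiffAt_re (contDiffAt_det (hh.smooth e y a))).of_le S2B.two_le_infty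

lemma continuous_quoG (hF : ContMDiff 𝓘(ℂ, Cm n) 𝓘(ℂ, Cm n) ω F) (hg : IsHermitian g)
    (hh : IsHermitian h) : Continuous (quoG F g h) := by
  rw [continuous_iff_continuousAt]
  intro y
  have a := BR.at_chartAt (n := n) y
  have a' := BR.at_chartAt (n := n) (F y)
  set e := chartAt (Cm n) y
  set e' := chartAt (Cm n) (F y)
  have h1 : ContinuousAt (quoL F g h e e') (e y) := by
    refine (((jac_holo hF a a').continuousAt.norm.pow 2).mul ?_).div
      (det_smooth hh a).continuousAt (hh.det_re_pos a).ne'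
    exact ContinuousAt.comp (g := fun z => (g e' z).det.re)
      (by rw [loc_apply a]; exact (det_smooth hg a').continuousAt) (loc_holo hF a a').continuousAt
  have h2 := (h1.congr (quoG_eq hF hg hh a a').symm).comp (e.continuousAt a.2)
  refine h2.congr ?_
  filter_upwards [e.open_source.mem_nhds a.2] with u hu
  simp only [Function.comp_apply, e.left_inv hu]

lemma conj_psd {A J : Matrix (Fin n) (Fin n) ℂ} (hA : A.PosSemidef) :
    (J.transpose * A * J.map (starRingEnd ℂ)).PosSemidef := by
  have h1 : J.transpose = (J.map (starRingEnd ℂ))ᴴ := by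
    ext i j
    simp [Matrix.conjTranspose_apply]
  rw [h1]
  exact hA.conjTranspose_mul_mul_same _

lemma det_conj (A J : Matrix (Fin n) (Fin n) ℂ) :
    (J.transpose * A * J.map (starRingEnd ℂ)).det.re = ‖J.det‖ ^ 2 * A.det.re := by
  have h1 : (J.map (starRingEnd ℂ)).det = starRingEnd ℂ J.det :=
    ((starRingEnd ℂ).map_det J).symm
  rw [Matrix.det_mul, Matrix.det_mul, Matrix.det_transpose, h1, mul_right_comm, Complex.mul_conj,
    Complex.re_ofReal_mul, Complex.normSq_eq_norm_sq]

lemma conj_pd {A J : Matrix (Fin n) (Fin n) ℂ} (hA : A.PosDef) (hJ : J.det ≠ 0) :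
    (J.transpose * A * J.map (starRingEnd ℂ)).PosDef := by
  have h1 : J.transpose = (J.map (starRingEnd ℂ))ᴴ := by
    ext i j
    simp [Matrix.conjTranspose_apply]
  rw [h1]
  refine hA.conjTranspose_mul_mul_same (Matrix.mulVec_injective_of_isUnit ?_)
  rw [Matrix.isUnit_iff_isUnit_det, isUnit_iff_ne_zero]
  have h2 : (J.map (starRingEnd ℂ)).det = starRingEnd ℂ J.det :=
    ((starRingEnd ℂ).map_det J).symm
  rw [h2]
  exact (map_ne_zero _).2 hJ

/-- **The Schwarz lemma for volume forms.** -/
theorem volLe [CompactSpace Y] (hF : ContMDiff 𝓘(ℂ, Cm n) 𝓘(ℂ, Cm n) ω F) (hg : IsHermitian g)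
    (hh : IsHermitian h) (h1 : Le (Ric g) (-g)) (h2 : Le (-h) (Ric h)) : VolLe F g h := by
  intro e e' y a a'
  obtain ⟨p, -, hp⟩ := isCompact_univ.exists_isMaxOn ⟨y, mem_univ y⟩
    (continuous_quoG hF hg hh).continuousOn
  have hmax : ∀ u, quoG F g h u ≤ quoG F g h p := fun u => hp (mem_univ u)
  have key : quoG F g h p ≤ 1 := by
    have k := BR.at_chartAt (n := n) p
    have k' := BR.at_chartAt (n := n) (F p)
    set c := chartAt (Cm n) p
    set c' := chartAt (Cm n) (F p)
    have q0 : quoG F g h p = quoL F g h c c' (c p) := by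
      rw [← (quoG_eq hF hg hh k k').self_of_nhds]
      simp only [k.left_inv]
    by_cases hJ : (jmat (loc F c c') (c p)).det = 0
    · rw [q0, quoL, hJ]
      simp
    have l0 := loc_holo hF k k'
    have j0 := jac_holo hF k k'
    have s1 : ContDiffAt ℝ 2 (fun z => Real.log (‖(jmat (loc F c c') z).det‖ ^ 2)) (c p) :=
      (((j0.restrict_scalars ℝ).of_le le_top).norm_sq ℝ).log
        (pow_ne_zero 2 (norm_ne_zero_iff.2 hJ))
    have s2 : ContDiffAt ℝ 2 (fun z => Real.log (g c' z).det.re) (loc F c c' (c p)) := by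
      rw [loc_apply k]
      exact (det_smooth hg k').log (hg.det_re_pos k').ne'
    have s3 : ContDiffAt ℝ 2 (fun z => Real.log (g c' (loc F c c' z)).det.re) (c p) :=
      ContDiffAt.comp (c p) (g := fun z => Real.log (g c' z).det.re) s2
        ((l0.restrict_scalars ℝ).of_le le_top)
    have s4 : ContDiffAt ℝ 2 (fun z => Real.log (h c z).det.re) (c p) :=
      (det_smooth hh k).log (hh.det_re_pos k).ne'
    have ev : ∀ᶠ z in 𝓝 (c p), 0 < quoL F g h c c' z ∧ Real.log (quoL F g h c c' z) =
        Real.log (‖(jmat (loc F c c') z).det‖ ^ 2) + Real.log (g c' (loc F c c' z)).det.re -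
          Real.log (h c z).det.re := by
      filter_upwards [nhds_at hF.continuous k k', j0.continuousAt.eventually_ne hJ] with z hz hz'
      have p1 : 0 < ‖(jmat (loc F c c') z).det‖ ^ 2 := pow_pos (norm_pos_iff.2 hz') 2
      have p2 : 0 < (g c' (loc F c c' z)).det.re := hg.det_re_pos hz.2.2
      have p3 := hh.det_re_pos hz.2.1
      rw [c.right_inv hz.1] at p3
      refine ⟨div_pos (mul_pos p1 p2) p3, ?_⟩
      rw [quoL, Real.log_div (mul_pos p1 p2).ne' p3.ne', Real.log_mul p1.ne' p2.ne']
    have hloc : IsLocalMax (fun z => Real.log (‖(jmat (loc F c c') z).det‖ ^ 2) +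
        Real.log (g c' (loc F c c' z)).det.re - Real.log (h c z).det.re) (c p) := by
      filter_upwards [ev, quoG_eq hF hg hh k k'] with z hz hz'
      rw [← hz.2, ← ev.self_of_nhds.2, ← q0]
      refine Real.log_le_log hz.1 ?_
      rw [← hz']
      exact hmax _
    have m1 := N.neg_cHess_posSemidef ((s1.add s3).sub s4) hloc
    rw [N.cHess_sub' (s1.add s3) s4, cHess_add s1 s3, cHess_log_norm_sq j0 hJ, zero_add,
      K.cHess_comp (f := fun z => Real.log (g c' z).det.re) s2 l0, loc_apply k] at m1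
    set J := jmat (loc F c c') (c p)
    have m2 := conj_psd (J := J) (h1 c' (F p) k')
    have m3 := (m1.add m2).add (h2 c p k)
    have m4 : (h c (c p) - J.transpose * g c' (c' (F p)) * J.map (starRingEnd ℂ)).PosSemidef := by
      convert m3 using 1
      simp only [Ric, Pi.neg_apply, Matrix.mul_sub, Matrix.sub_mul, Matrix.mul_neg, Matrix.neg_mul]
      abel
    have m5 := N.det_re_le (conj_pd (hg.posDef c' _ k') hJ) m4
    rw [det_conj] at m5
    rw [q0, quoL, div_le_one (hh.det_re_pos k), loc_apply k]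
    exact m5
  have h3 := (hmax y).trans key
  rw [quoG, quo_change hF hg hh (BR.at_chartAt _) (BR.at_chartAt _) a a', quo,
    div_le_one (hh.det_re_pos a)] at h3
  exact h3

end Vale.Agent.N272
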